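import Mathlib
import Vale.Agent.Lib.P248.helper37.Q2Defs

/-!
P248 (pool job Q2AB-J9): the lower bound for the `k`-negative part of the polar

`polK_lower_of` proves, by induction on the dimension, that the part of the polar of `A` about
`z` with exactly `k` negative coordinates has volume at least
`Om k (tree m A z) / (k! m! ∏ z i)`.  The facts of the other leaves that it uses are taken as
hypotheses, so that this file depends only on the definitions.
-/

open MeasureTheory Set

namespace Vale.Agent.Lib.P248.H27

open Vale.Agent.Lib.P248.H37 Vale.Agent.Lib.P248.H37Q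

/-- `ENNReal.ofReal` of a finite sum is at most the sum of the `ENNReal.ofReal`. -/
theorem ofReal_sum_le {ι : Type*} (s : Finset ι) (f : ι → ℝ) :
    ENNReal.ofReal (∑ i ∈ s, f i) ≤ ∑ i ∈ s, ENNReal.ofReal (f i) := by
  classical
  induction s using Finset.induction_on with
  | empty => simp
  | insert a s ha ih =>
    rw [Finset.sum_insert ha, Finset.sum_insert ha]
    exact le_trans ENNReal.ofReal_add_le (add_le_add le_rfl ih)

/-- The lower bound for `polK`, from the facts on sections, on `posZ` and on the pieces. -/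
theorem polK_lower_of
    (h_adm_sec : ∀ (n : ℕ) (A : Set (Fin (n + 1) → ℝ)) (z : Fin (n + 1) → ℝ), Adm A z →
      ∀ i : Fin (n + 1), Adm (sec A i) (fun k => z (i.succAbove k)))
    (h_vT0 : ∀ (A : Set (Fin 0 → ℝ)) (z : Fin 0 → ℝ), vT A z = 1)
    (h_ne_top : ∀ (m : ℕ) (A : Set (Fin m → ℝ)) (z : Fin m → ℝ), Adm A z →
      volume (posZ A z) ≠ ⊤)
    (h_zero : ∀ (m : ℕ) (A : Set (Fin m → ℝ)) (z : Fin m → ℝ), polK A z 0 = posZ A z)
    (h_count : ∀ (m : ℕ) (A : Set (Fin m → ℝ)) (z : Fin m → ℝ) (k : ℕ),
      (k : ENNReal) * volume (polK A z k) = ∑ i, volume (polK A z k ∩ {y | y i < 0}))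
    (h_piece : ∀ (n : ℕ) (A : Set (Fin (n + 1) → ℝ)) (z : Fin (n + 1) → ℝ), Adm A z →
      ∀ (i : Fin (n + 1)) (k : ℕ),
        ENNReal.ofReal (1 / (((n : ℝ) + 1) * z i)) *
            volume (polK (sec A i) (fun j => z (i.succAbove j)) k) ≤
          volume (polK A z (k + 1) ∩ {y | y i < 0})) :
    ∀ (m : ℕ) (A : Set (Fin m → ℝ)) (z : Fin m → ℝ), Adm A z → ∀ k : ℕ,
      ENNReal.ofReal ((tree m A z).Om k / ((k.factorial : ℝ) * (m.factorial : ℝ) * ∏ i, z i)) ≤
        volume (polK A z k) := by
  intro m
  induction m with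
  | zero =>
    intro A z h k
    cases k with
    | zero =>
      have hv : volume (posZ A z) = 1 := by
        have h1 := h_vT0 A z
        unfold vT at h1
        rw [← ENNReal.ofReal_toReal (h_ne_top 0 A z h), h1, ENNReal.ofReal_one]
      rw [h_zero, hv]
      simp [tree, LT.Om, LT.u]
    | succ k =>
      simp [tree, LT.Om]
  | succ n ih =>
    intro A z h k
    have hP : 0 < ∏ i, z i := Finset.prod_pos (fun i _ => h.pos i)
    have hF : (0 : ℝ) < ((n + 1).factorial : ℝ) := Nat.cast_pos.2 (Nat.factorial_pos _)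
    cases k with
    | zero =>
      rw [h_zero]
      have he : (tree (n + 1) A z).Om 0
          / (((0 : ℕ).factorial : ℝ) * ((n + 1).factorial : ℝ) * ∏ i, z i) = vT A z := by
        simp only [tree, LT.Om, LT.u]
        rw [Nat.factorial_zero, Nat.cast_one, one_mul]
        field_simp
      rw [he]
      unfold vT
      rw [ENNReal.ofReal_toReal (h_ne_top _ A z h)]
    | succ k =>
      have hcount := h_count (n + 1) A z (k + 1)
      have hk : (0 : ℝ) < (k.factorial : ℝ) := Nat.cast_pos.2 (Nat.factorial_pos _)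
      have hstep : ∀ i : Fin (n + 1),
          ENNReal.ofReal ((tree n (sec A i) (fun j => z (i.succAbove j))).Om k
            / ((k.factorial : ℝ) * ((n + 1).factorial : ℝ) * ∏ j, z j)) ≤
          volume (polK A z (k + 1) ∩ {y | y i < 0}) := by
        intro i
        refine le_trans ?_ (h_piece n A z h i k)
        have hih := ih (sec A i) (fun j => z (i.succAbove j)) (h_adm_sec n A z h i) k
        refine le_trans ?_ (mul_le_mul' le_rfl hih)
        have hzi : 0 < z i := h.pos i
        have hPi : 0 < ∏ j, z (i.succAbove j) := Finset.prod_pos (fun j _ => h.pos _)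
        have hn : (0 : ℝ) < (n.factorial : ℝ) := Nat.cast_pos.2 (Nat.factorial_pos _)
        rw [← ENNReal.ofReal_mul (by positivity)]
        refine le_of_eq (congrArg ENNReal.ofReal ?_)
        rw [Fin.prod_univ_succAbove _ i, Nat.factorial_succ]
        push_cast
        field_simp
      have hsum : ENNReal.ofReal ((tree (n + 1) A z).Om (k + 1)
            / ((k.factorial : ℝ) * ((n + 1).factorial : ℝ) * ∏ j, z j)) ≤
          ((k + 1 : ℕ) : ENNReal) * volume (polK A z (k + 1)) := by
        rw [hcount]
        have hOm : (tree (n + 1) A z).Om (k + 1)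
            = ∑ i, (tree n (sec A i) (fun j => z (i.succAbove j))).Om k := by
          simp only [tree, LT.Om]
        rw [hOm, Finset.sum_div]
        exact le_trans (ofReal_sum_le _ _) (Finset.sum_le_sum (fun i _ => hstep i))
      have hk1 : (0 : ℝ) < ((k + 1 : ℕ) : ℝ) := by positivity
      have hrew : (tree (n + 1) A z).Om (k + 1)
            / (((k + 1).factorial : ℝ) * ((n + 1).factorial : ℝ) * ∏ j, z j)
          = ((tree (n + 1) A z).Om (k + 1)
            / ((k.factorial : ℝ) * ((n + 1).factorial : ℝ) * ∏ j, z j)) / ((k + 1 : ℕ) : ℝ) := by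
        rw [Nat.factorial_succ k]
        push_cast
        field_simp
      rw [hrew, ENNReal.ofReal_div_of_pos hk1, ENNReal.ofReal_natCast]
      exact ENNReal.div_le_of_le_mul' hsum

end Vale.Agent.Lib.P248.H27
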